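import Vale.Agent.P237.Quant.TailData.N50.tailN50N0Part0
import Vale.Agent.P237.Quant.TailData.N50.tailN50N0Part1
import Vale.Agent.P237.Quant.TailData.N50.tailN50N0Part2
import Vale.Agent.P237.Quant.TailData.N50.tailN50N0Part3
import Vale.Agent.P237.Quant.TailData.N50.tailN50N0Part4

/-!
Tail calibration tailN50N0 in dimension 50. The check. Generated data, checked by the kernel.
-/

set_option maxRecDepth 100000
set_option linter.all false

namespace Vale.Agent.P237.Quant.TailData

open TailCert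


/-- The calibration. -/
noncomputable def tailN50N0 : Cfg :=
  tailN50N0Base.withIvals (List.flatten [tailN50N0L0, tailN50N0L1, tailN50N0L2, tailN50N0L3, tailN50N0L4, tailN50N0L5, tailN50N0L6, tailN50N0L7, tailN50N0L8, tailN50N0L9, tailN50N0L10, tailN50N0L11, tailN50N0L12, tailN50N0L13, tailN50N0L14, tailN50N0L15, tailN50N0L16, tailN50N0L17, tailN50N0L18])

theorem tailN50N0_parts : [tailN50N0L0, tailN50N0L1, tailN50N0L2, tailN50N0L3, tailN50N0L4, tailN50N0L5, tailN50N0L6, tailN50N0L7, tailN50N0L8, tailN50N0L9, tailN50N0L10, tailN50N0L11, tailN50N0L12, tailN50N0L13, tailN50N0L14, tailN50N0L15, tailN50N0L16, tailN50N0L17, tailN50N0L18].Forall fun l => tailN50N0Base.partUsed tailN50N0Used l = true := by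
  simp only [List.forall_cons, List.Forall]
  exact ⟨tailN50N0L0_ok, tailN50N0L1_ok, tailN50N0L2_ok, tailN50N0L3_ok, tailN50N0L4_ok, tailN50N0L5_ok, tailN50N0L6_ok, tailN50N0L7_ok, tailN50N0L8_ok, tailN50N0L9_ok, tailN50N0L10_ok, tailN50N0L11_ok, tailN50N0L12_ok, tailN50N0L13_ok, tailN50N0L14_ok, tailN50N0L15_ok, tailN50N0L16_ok, tailN50N0L17_ok, tailN50N0L18_ok⟩

theorem tailN50N0_check : tailN50N0.check = true :=
  Cfg.check_of_parts (by decide +kernel) tailN50N0_parts

end Vale.Agent.P237.Quant.TailData
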